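import Vale.Agent.P141.Numeric
import Vale.Agent.P141.Config

/-! Unboundedness of the trilinear Hilbert transform below `r = 26/55`, and near three corners. -/

open MeasureTheory Vale.Agent.P141
open scoped ENNReal NNReal

namespace Vale.Agent.Results.P141.UnboundedRange

lemma main_wf : Wellformed mainWeights := by
  unfold Wellformed total lprod fib; decide +kernel

lemma corner12_wf : Wellformed cornerWeights12 := by
  unfold Wellformed total lprod fib; decide +kernel

lemma corner23_wf : Wellformed cornerWeights23 := by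
  unfold Wellformed total lprod fib; decide +kernel

lemma corner13_wf : Wellformed cornerWeights13 := by
  unfold Wellformed total lprod fib; decide +kernel

lemma main_gains : Gains mainWeights 1 26 55 ∧ Gains mainWeights 2 26 55 ∧
    Gains mainWeights 3 26 55 := by
  unfold Gains total lprod fib proj; decide +kernel

lemma corner12_gains : Gains cornerWeights12 1 1 2 ∧ Gains cornerWeights12 2 1 2 ∧
    Gains cornerWeights12 3 3 8 := by
  unfold Gains total lprod fib proj; decide +kernel

lemma corner23_gains : Gains cornerWeights23 1 3 8 ∧ Gains cornerWeights23 2 1 2 ∧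
    Gains cornerWeights23 3 1 2 := by
  unfold Gains total lprod fib proj; decide +kernel

lemma corner13_gains : Gains cornerWeights13 1 1 2 ∧ Gains cornerWeights13 2 1 3 ∧
    Gains cornerWeights13 3 1 2 := by
  unfold Gains total lprod fib proj; decide +kernel

/-- The trilinear Hilbert transform is unbounded at every Holder tuple with `r < 26/55`, and at
every Holder tuple in three corner regions which reach `r` arbitrarily close to `1/2`. -/
theorem result : ∀ p₁ p₂ p₃ r : ℝ≥0∞, 1 < p₁ → 1 < p₂ → 1 < p₃ → 0 < r → r < ⊤ →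
    r⁻¹ = p₁⁻¹ + p₂⁻¹ + p₃⁻¹ →
    (r < 26 / 55 ∨
      2 < p₁.toReal⁻¹ + p₂.toReal⁻¹ + 3 / 4 * p₃.toReal⁻¹ ∨
      2 < 3 / 4 * p₁.toReal⁻¹ + p₂.toReal⁻¹ + p₃.toReal⁻¹ ∨
      2 < p₁.toReal⁻¹ + 2 / 3 * p₂.toReal⁻¹ + p₃.toReal⁻¹) →
    ¬ BoundedAt p₁ p₂ p₃ r := by
  intro p₁ p₂ p₃ r h₁ h₂ h₃ hr hr' hsum hcase
  have hu₁ : 0 ≤ p₁.toReal⁻¹ := by positivity
  have hu₂ : 0 ≤ p₂.toReal⁻¹ := by positivity
  have hu₃ : 0 ≤ p₃.toReal⁻¹ := by positivity
  have hρ : 0 < r.toReal := ENNReal.toReal_pos hr.ne' hr'.ne
  have hS : r.toReal⁻¹ = p₁.toReal⁻¹ + p₂.toReal⁻¹ + p₃.toReal⁻¹ := by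
    have := congrArg ENNReal.toReal hsum
    rw [ENNReal.toReal_add, ENNReal.toReal_add] at this
    · simpa [ENNReal.toReal_inv] using this
    all_goals simp [(zero_lt_one.trans h₁).ne', (zero_lt_one.trans h₂).ne', (zero_lt_one.trans h₃).ne']
  have hS2 : 1 ≤ r.toReal⁻¹ := by
    rcases hcase with h | h | h | h
    · refine (one_le_inv₀ hρ).2 ?_
      have := ENNReal.toReal_mono (by simp [ENNReal.div_eq_top]) h.le
      norm_num at this
      linarith
    all_goals rw [hS]; linarith
  have hr1 : r ≤ 1 := by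
    rw [← ENNReal.toReal_le_toReal hr'.ne ENNReal.one_ne_top, ENNReal.toReal_one]
    exact (one_le_inv₀ hρ).1 hS2
  rcases hcase with h | h | h | h
  · refine not_boundedAt_of_gains mainWeights main_wf main_gains.1 main_gains.2.1 main_gains.2.2
      (by norm_num) (by norm_num) (by norm_num) h₁ h₂ h₃ hr.ne' hr1 hsum ?_
    have h' := (ENNReal.toReal_lt_toReal hr'.ne (by simp [ENNReal.div_eq_top])).2 h
    norm_num at h'
    have hinv : (55 : ℝ) / 26 < r.toReal⁻¹ := by
      have := inv_strictAnti₀ hρ h'
      norm_num at this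
      exact this
    rw [hS] at hinv
    norm_num
    linarith
  · refine not_boundedAt_of_gains cornerWeights12 corner12_wf corner12_gains.1 corner12_gains.2.1
      corner12_gains.2.2 (by norm_num) (by norm_num) (by norm_num) h₁ h₂ h₃ hr.ne' hr1 hsum ?_
    norm_num
    linarith
  · refine not_boundedAt_of_gains cornerWeights23 corner23_wf corner23_gains.1 corner23_gains.2.1
      corner23_gains.2.2 (by norm_num) (by norm_num) (by norm_num) h₁ h₂ h₃ hr.ne' hr1 hsum ?_
    norm_num
    linarith
  · refine not_boundedAt_of_gains cornerWeights13 corner13_wf corner13_gains.1 corner13_gains.2.1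
      corner13_gains.2.2 (by norm_num) (by norm_num) (by norm_num) h₁ h₂ h₃ hr.ne' hr1 hsum ?_
    norm_num
    linarith

end Vale.Agent.Results.P141.UnboundedRange
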